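import Vale.Agent.HDX.Chain

/-!
Bounded fillings and cones in joins of complexes of subspaces which are in general position to a
fixed finite family, over a large finite field.
-/

open Finset Module
open Vale.Agent.HDX

namespace Vale.Agent.P067.Opp

variable {K V : Type*} [Field K] [AddCommGroup V] [Module K V] [FiniteDimensional K V]
  {κ S : Type*}

/-- General position with respect to every member of the family. -/
def Trans (F : κ → Submodule K V) (X : Submodule K V) : Prop :=
  ∀ i, X ⊓ F i = ⊥ ∨ X ⊔ F i = ⊤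

/-- A vertex: a block and a subspace strictly inside its interval. -/
def Vtx (F : κ → Submodule K V) (B U : S → Submodule K V) (v : S × Submodule K V) : Prop :=
  B v.1 < v.2 ∧ v.2 < U v.1 ∧ Trans F v.2

/-- A face with `k` vertices of the join of the blocks. -/
def Face (F : κ → Submodule K V) (B U : S → Submodule K V) (k : ℕ)
    (σ : Finset (S × Submodule K V)) : Prop :=
  σ.card = k ∧ (∀ v ∈ σ, Vtx F B U v) ∧ ∀ v ∈ σ, ∀ w ∈ σ, v.1 = w.1 → v.2 ≤ w.2 ∨ w.2 ≤ v.2

/-- The number of vertices of a top face. -/
noncomputable def budget [Fintype S] (B U : S → Submodule K V) : ℕ :=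
  ∑ s, (finrank K (U s) - finrank K (B s) - 1)

lemma trans_sup {F : κ → Submodule K V} {X : Submodule K V} {x : V} (hX : Trans F X)
    (hx : ∀ i, X ⊔ F i = ⊤ ∨ x ∉ X ⊔ F i) : Trans F (X ⊔ Submodule.span K {x}) := by
  intro i
  rcases hX i with h | h
  · rcases hx i with h' | h'
    · exact Or.inr (top_le_iff.1 (h' ▸ sup_le_sup_right le_sup_left _))
    · refine Or.inl ((Submodule.eq_bot_iff _).2 fun y hy => ?_)
      obtain ⟨hy1, hy2⟩ := Submodule.mem_inf.1 hy
      obtain ⟨a, ha, b, hb, rfl⟩ := Submodule.mem_sup.1 hy1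
      obtain ⟨c, rfl⟩ := Submodule.mem_span_singleton.1 hb
      rcases eq_or_ne c 0 with rfl | hc
      · rw [zero_smul, add_zero] at hy2 ⊢
        exact (Submodule.eq_bot_iff _).1 h a (Submodule.mem_inf.2 ⟨ha, hy2⟩)
      · refine absurd ?_ h'
        have h2 : c • x ∈ X ⊔ F i := by
          have := sub_mem (Submodule.mem_sup_right (S := X) hy2)
            (Submodule.mem_sup_left (T := F i) ha)
          simpa using this
        exact (Submodule.smul_mem_iff _ hc).1 h2
  · exact Or.inr (top_le_iff.1 (h ▸ sup_le_sup_right le_sup_left _))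

lemma proper_sup {F : κ → Submodule K V} {X U : Submodule K V} {i : κ} (hU : Trans F U)
    (hXU : X < U) (h : X ⊔ F i ≠ ⊤) : ¬ U ≤ X ⊔ F i := by
  intro hle
  rcases hU i with h' | h'
  · refine hXU.ne (le_antisymm hXU.le ?_)
    calc U ≤ (X ⊔ F i) ⊓ U := le_inf hle le_rfl
      _ = X ⊔ F i ⊓ U := sup_inf_assoc_of_le _ hXU.le
      _ = X := by rw [inf_comm, h', sup_bot_eq]
  · exact h (top_le_iff.1 (h' ▸ sup_le hle le_sup_right))

/-- A vector of a subspace outside few subspaces not containing it. -/
lemma exists_outside [Fintype K] {U : Submodule K V} (T : Finset (Submodule K V))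
    (hT : ∀ P ∈ T, ¬ U ≤ P) (hcard : T.card < Fintype.card K) : ∃ x ∈ U, ∀ P ∈ T, x ∉ P := by
  have h := Submodule.iUnion_ssubset_of_forall_ne_top_of_card_lt (K := K) T.attach
    (fun P => P.1.comap U.subtype)
    (fun P => by rw [Ne, Submodule.comap_subtype_eq_top]; exact hT P.1 P.2)
    (by simpa [ENat.card_eq_coe_fintype_card] using hcard)
  obtain ⟨x, -, hx⟩ := Set.exists_of_ssubset h
  exact ⟨x, x.2, fun P hP hxP => hx (Set.mem_iUnion₂.2 ⟨⟨P, hP⟩, Finset.mem_attach _ _, hxP⟩)⟩

section Chains

variable {α : Type*} [DecidableEq α]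

lemma supp_cone {p q : Finset α → Prop} {x : α} {z : Ch α} (hz : Supp p z)
    (h : ∀ σ, p σ → x ∉ σ → q (insert x σ)) : Supp q (cone x z) := by
  refine Supp.linearCombination hz fun σ hσ => ?_
  split
  · exact Supp.zero
  · exact Supp.single (h σ hσ ‹_›) 1

lemma supp_lk {p q : Finset α → Prop} {x : α} {z : Ch α} (hz : Supp p z)
    (h : ∀ σ, p σ → x ∈ σ → q (σ.erase x)) : Supp q (lk x z) := by
  refine Supp.linearCombination hz fun σ hσ => ?_
  split
  · exact Supp.single (h σ hσ ‹_›) 1
  · exact Supp.zero

lemma card_lc {f : Finset α → Ch α} {z : Ch α} (h : ∀ σ ∈ z.support, (f σ).support.card ≤ 1) :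
    (Finsupp.linearCombination (ZMod 2) f z).support.card ≤ z.support.card := by
  classical
  rw [Finsupp.linearCombination_apply, Finsupp.sum]
  refine (Finset.card_le_card Finsupp.support_finsetSum).trans
    (Finset.card_biUnion_le.trans ?_)
  exact (Finset.sum_le_card_nsmul _ _ 1 fun σ hσ =>
    (Finset.card_le_card Finsupp.support_smul).trans (h σ hσ)).trans_eq
      (by rw [smul_eq_mul, mul_one])

lemma card_single_le (σ : Finset α) : (Finsupp.single σ (1 : ZMod 2) : Ch α).support.card ≤ 1 :=
  (Finset.card_le_card Finsupp.support_single_subset).trans_eq (Finset.card_singleton σ)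

lemma card_cone (x : α) (z : Ch α) : (cone x z).support.card ≤ z.support.card := by
  refine card_lc fun σ _ => ?_
  split
  · simp
  · exact card_single_le _

lemma card_lk (x : α) (z : Ch α) : (lk x z).support.card ≤ z.support.card := by
  refine card_lc fun σ _ => ?_
  split
  · exact card_single_le _
  · simp

lemma card_add (x y : Ch α) : (x + y).support.card ≤ x.support.card + y.support.card :=
  (Finset.card_le_card Finsupp.support_add).trans (Finset.card_union_le _ _)

lemma card_sum {ι : Type*} [DecidableEq ι] (s : Finset ι) (f : ι → Ch α) {m : ℕ}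
    (h : ∀ i ∈ s, (f i).support.card ≤ m) : (∑ i ∈ s, f i).support.card ≤ s.card * m :=
  (Finset.card_le_card Finsupp.support_finsetSum).trans (Finset.card_biUnion_le.trans
    ((Finset.sum_le_card_nsmul _ _ m h).trans_eq (smul_eq_mul _ _)))

lemma cone_lk (x : α) (z : Ch α) : cone x (lk x z) = z.filter (fun σ => x ∈ σ) := by
  induction z using Finsupp.induction_linear with
  | zero => simp [Finsupp.filter_zero]
  | add f g hf hg => simp [hf, hg, Finsupp.filter_add]
  | single σ c =>
    have e : (Finsupp.single σ c : Ch α) = c • Finsupp.single σ 1 := by simp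
    by_cases hx : x ∈ σ
    · rw [Finsupp.filter_single_of_pos (p := fun σ => x ∈ σ) (b := c) hx, e, map_smul, map_smul, lk_single, if_pos hx,
        cone_single, if_neg (Finset.notMem_erase x σ), Finset.insert_erase hx]
    · rw [Finsupp.filter_single_of_neg (p := fun σ => x ∈ σ) (b := c) hx, e, map_smul, map_smul, lk_single, if_neg hx,
        map_zero, smul_zero]

lemma bd_cone_lk {x : α} {z : Ch α} (hz : bd z = 0) : bd (cone x (lk x z)) = lk x z := by
  have h := bd_cone x (lk x z)
  rwa [bd_lk, hz, map_zero, map_zero, add_zero] at h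

lemma add_filter (z : Ch α) (P : Finset α → Prop) [DecidablePred P] :
    z + z.filter P = z.filter (fun σ => ¬ P σ) := by
  conv_lhs => arg 1; rw [← Finsupp.filter_pos_add_filter_neg z P]
  rw [add_comm (z.filter P), add_assoc, ZModModule.add_self, add_zero]

end Chains

section Fill

variable [DecidableEq S] [DecidableEq (Submodule K V)] {F : κ → Submodule K V}
  {B U : S → Submodule K V}

/-- Moving the vertices of one block up by a line. -/
lemma shift (s : S) (x : V) {k : ℕ} :
    ∀ (n : ℕ) (R : Finset (Submodule K V)) (z : Ch (S × Submodule K V)), R.card = n →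
      Supp (Face F B U k) z → bd z = 0 →
      (∀ r ∈ R, Vtx F B U (s, r ⊔ Submodule.span K {x})) →
      (∀ σ ∈ z.support, ∀ v ∈ σ, v.1 = s → x ∈ v.2 ∨ v.2 ∈ R) →
      ∃ c, Supp (Face F B U (k + 1)) c ∧ Supp (Face F B U k) (z + bd c) ∧
        (∀ σ ∈ (z + bd c).support, ∀ v ∈ σ, v.1 = s → x ∈ v.2) ∧
        (z + bd c).support.card ≤ z.support.card ∧ c.support.card ≤ n * z.support.card := by
  intro n
  induction n with
  | zero =>
    intro R z hR hz _ _ hcov
    obtain rfl := Finset.card_eq_zero.1 hR
    refine ⟨0, Supp.zero, by simpa using hz, ?_, by simp, by simp⟩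
    intro σ hσ v hv hvs
    simp only [map_zero, add_zero] at hσ
    simpa using hcov σ hσ v hv hvs
  | succ n ih =>
    intro R z hR hz hbd hVR hcov
    obtain ⟨r, hr, hmax⟩ := R.exists_max_image (fun r => finrank K r)
      (Finset.card_pos.1 (by omega))
    set r' := r ⊔ Submodule.span K {x} with hr'
    have hxr' : x ∈ r' := Submodule.mem_sup_right (Submodule.mem_span_singleton_self x)
    set y := cone (s, r) (lk (s, r) z) with hy
    have hyf : y = z.filter (fun σ => (s, r) ∈ σ) := cone_lk _ _
    have hycard : y.support.card +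
        (z.filter fun σ => (s, r) ∉ σ).support.card = z.support.card := by
      rw [hyf, Finsupp.support_filter, Finsupp.support_filter,
        Finset.card_filter_add_card_filter_not]
    have hcmp : ∀ σ ∈ y.support, ∀ v ∈ σ, v.1 = s → v.2 ≤ r' ∨ r' ≤ v.2 := by
      intro σ hσ v hv hvs
      rw [hyf, Finsupp.support_filter, Finset.mem_filter] at hσ
      rcases (hz σ hσ.1).2.2 v hv (s, r) hσ.2 hvs with h | h
      · exact Or.inl (h.trans le_sup_left)
      · by_cases hx : x ∈ v.2
        · exact Or.inr (sup_le h ((Submodule.span_singleton_le_iff_mem _ _).2 hx))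
        · have := Submodule.eq_of_le_of_finrank_le h
            (hmax _ ((hcov σ hσ.1 v hv hvs).resolve_left hx))
          exact Or.inl (this.ge.trans le_sup_left)
    have hyF : Supp (fun σ => Face F B U k σ ∧ ∀ v ∈ σ, v.1 = s → v.2 ≤ r' ∨ r' ≤ v.2) y :=
      fun σ hσ => ⟨hz σ (by
        rw [hyf, Finsupp.support_filter, Finset.mem_filter] at hσ
        exact hσ.1), hcmp σ hσ⟩
    have hins : ∀ σ, (Face F B U k σ ∧ ∀ v ∈ σ, v.1 = s → v.2 ≤ r' ∨ r' ≤ v.2) →
        (s, r') ∉ σ → Face F B U (k + 1) (insert (s, r') σ) := by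
      rintro σ ⟨⟨hc, hv, hch⟩, hcm⟩ hnot
      refine ⟨by rw [Finset.card_insert_of_notMem hnot, hc], ?_, ?_⟩
      · simp only [Finset.forall_mem_insert]
        exact ⟨hVR r hr, hv⟩
      · intro v hv w hw hvw
        rcases Finset.mem_insert.1 hv with rfl | hv <;> rcases Finset.mem_insert.1 hw with rfl | hw
        · exact Or.inl le_rfl
        · exact (hcm w hw hvw.symm).symm
        · exact hcm v hv hvw
        · exact hch v hv w hw hvw
    have hlk : Supp (fun σ => ∃ τ ∈ y.support, τ.erase (s, r) = σ) (lk (s, r) z) := by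
      refine supp_lk (p := fun σ => σ ∈ z.support) (fun σ hσ => hσ) fun σ hσ hm => ⟨σ, ?_, rfl⟩
      rw [hyf, Finsupp.support_filter, Finset.mem_filter]
      exact ⟨hσ, hm⟩
    have e1 : z + bd (cone (s, r') y) =
        z.filter (fun σ => (s, r) ∉ σ) + cone (s, r') (lk (s, r) z) := by
      have h := bd_cone (s, r') y
      rw [hy, bd_cone_lk hbd, ← hy] at h
      calc z + bd (cone (s, r') y)
          = z + (bd (cone (s, r') y) + cone (s, r') (lk (s, r) z)) +
              cone (s, r') (lk (s, r) z) := by
            rw [add_assoc, add_assoc (bd _), ZModModule.add_self, add_zero]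
        _ = (z + y) + cone (s, r') (lk (s, r) z) := by rw [h]
        _ = _ := by rw [hyf, add_filter]
    set z1 := z + bd (cone (s, r') y) with hz1
    have hF1 : Supp (fun σ => Face F B U k σ ∧ ∀ v ∈ σ, v.1 = s → x ∈ v.2 ∨ v.2 ∈ R.erase r)
        z1 := by
      rw [e1]
      refine Supp.add ?_ (supp_cone hlk ?_)
      · intro σ hσ
        rw [Finsupp.support_filter, Finset.mem_filter] at hσ
        refine ⟨hz σ hσ.1, fun v hv hvs => (hcov σ hσ.1 v hv hvs).imp_right fun h =>
          Finset.mem_erase.2 ⟨fun e => hσ.2 ?_, h⟩⟩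
        rw [show (s, r) = v from Prod.ext hvs.symm e.symm]
        exact hv
      · rintro σ ⟨τ, hτ, rfl⟩ hnot
        have hsub : insert (s, r') (τ.erase (s, r)) ⊆ insert (s, r') τ :=
          Finset.insert_subset_insert _ (Finset.erase_subset _ _)
        have hτz := hτ
        rw [hyf, Finsupp.support_filter, Finset.mem_filter] at hτz
        refine ⟨⟨?_, ?_, ?_⟩, ?_⟩
        · rw [Finset.card_insert_of_notMem hnot, Finset.card_erase_add_one hτz.2, (hz τ hτz.1).1]
        · simp only [Finset.forall_mem_insert]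
          exact ⟨hVR r hr, fun v hv => (hz τ hτz.1).2.1 v (Finset.mem_of_mem_erase hv)⟩
        · intro v hv w hw hvw
          rcases Finset.mem_insert.1 hv with rfl | hv <;>
            rcases Finset.mem_insert.1 hw with rfl | hw
          · exact Or.inl le_rfl
          · exact (hcmp τ hτ w (Finset.mem_of_mem_erase hw) hvw.symm).symm
          · exact hcmp τ hτ v (Finset.mem_of_mem_erase hv) hvw
          · exact (hz τ hτz.1).2.2 v (Finset.mem_of_mem_erase hv) w
              (Finset.mem_of_mem_erase hw) hvw
        · intro v hv hvs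
          rcases Finset.mem_insert.1 hv with rfl | hv
          · exact Or.inl hxr'
          · refine (hcov τ hτz.1 v (Finset.mem_of_mem_erase hv) hvs).imp_right fun h =>
              Finset.mem_erase.2 ⟨fun e => Finset.ne_of_mem_erase hv ?_, h⟩
            exact Prod.ext hvs e
    have hz1c : z1.support.card ≤ z.support.card := by
      rw [e1]
      refine (card_add _ _).trans ?_
      have h1 := card_cone (s, r') (lk (s, r) z)
      have h2 : (lk (s, r) z).support.card ≤ y.support.card := by
        calc (lk (s, r) z).support.card = (lk (s, r) y).support.card := ?_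
          _ ≤ _ := card_lk _ _
        congr 2
        rw [hyf]
        refine (?_ : lk (s, r) z = lk (s, r) (z.filter fun σ => (s, r) ∈ σ))
        conv_lhs => rw [← Finsupp.filter_pos_add_filter_neg z (fun σ => (s, r) ∈ σ)]
        rw [map_add, add_eq_left, lk, Finsupp.linearCombination_apply]
        refine Finset.sum_eq_zero fun σ hσ => ?_
        rw [Finsupp.support_filter, Finset.mem_filter] at hσ
        simp [hσ.2]
      omega
    have hbd1 : bd z1 = 0 := by rw [hz1, map_add, hbd, bd_bd, add_zero]
    obtain ⟨c, hc, hzc, hx, hsz, hcs⟩ := ih (R.erase r) z1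
      (by rw [Finset.card_erase_of_mem hr]; omega) (hF1.mono fun σ h => h.1) hbd1
      (fun r hr => hVR r (Finset.mem_of_mem_erase hr)) (fun σ hσ => (hF1 σ hσ).2)
    have e2 : z + bd (cone (s, r') y + c) = z1 + bd c := by rw [map_add, ← add_assoc]
    refine ⟨cone (s, r') y + c, (supp_cone hyF hins).add hc, e2 ▸ hzc, ?_, ?_, ?_⟩
    · rw [e2]; exact hx
    · rw [e2]; exact hsz.trans hz1c
    · refine (card_add _ _).trans ?_
      have h1 : (cone (s, r') y).support.card ≤ z.support.card :=
        (card_cone _ _).trans (by omega)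
      have h2 : n * z1.support.card ≤ n * z.support.card := Nat.mul_le_mul_left _ hz1c
      rw [Nat.succ_mul]
      omega

/-- The number of faces used to fill a cycle. -/
def fillSize : ℕ → ℕ → ℕ
  | 0, _ => 0
  | N + 1, M => (N + 3) * (M + M * fillSize N M + 1) ^ 2

lemma fillSize_mono : ∀ N, Monotone (fillSize N)
  | 0 => fun _ _ _ => le_rfl
  | N + 1 => fun a b h => by
    have := fillSize_mono N h
    simp only [fillSize]
    gcongr

/-- A field size which suffices for the fillings. -/
def fieldSize (m : ℕ) : ℕ → ℕ → ℕ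
  | 0, _ => 0
  | N + 1, M => fieldSize m N M + (m + 1) * ((N + 2) * (M + M * fillSize N M + 1) + 1)

lemma fieldSize_mono (m : ℕ) : ∀ N, Monotone (fieldSize m N)
  | 0 => fun _ _ _ => le_rfl
  | N + 1 => fun a b h => by
    have := fieldSize_mono m N h
    have := fillSize_mono N h
    simp only [fieldSize]
    gcongr

variable [Fintype K] [Fintype κ] [Fintype S]

/-- Cycles below the top dimension bound boundedly many faces. -/
theorem exists_fill : ∀ (N : ℕ) (B U : S → Submodule K V) (k : ℕ) (z : Ch (S × Submodule K V)),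
    (∀ s, B s ≤ U s ∧ Trans F (B s) ∧ Trans F (U s)) → budget B U ≤ N → k + 1 ≤ budget B U →
    fieldSize (Fintype.card κ) N z.support.card < Fintype.card K →
    Supp (Face F B U k) z → bd z = 0 →
    ∃ w, Supp (Face F B U (k + 1)) w ∧ bd w = z ∧
      w.support.card ≤ fillSize N z.support.card := by
  intro N
  induction N with
  | zero =>
    intro B U k z _ h1 h2 _ _ _
    omega
  | succ N ih =>
    intro B U k z hBU hN hk hq hz hbd
    set M := z.support.card with hM
    obtain ⟨s, -, hs⟩ := Finset.exists_ne_zero_of_sum_ne_zero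
      (s := Finset.univ) (f := fun s => finrank K (U s) - finrank K (B s) - 1)
      (by change budget B U ≠ 0; omega)
    replace hs : finrank K (B s) + 2 ≤ finrank K (U s) := by omega
    -- the vertices of block `s` of corank one
    set hv : Finset (S × Submodule K V) := (z.support.biUnion id).filter fun v =>
      v.1 = s ∧ finrank K v.2 + 1 = finrank K (U s) with hhv
    have uniq : ∀ σ ∈ z.support, ∀ v ∈ σ, ∀ w ∈ σ, v ∈ hv → w ∈ hv → v = w := by
      intro σ hσ v hv' w hw' h1 h2
      obtain ⟨-, e1, f1⟩ := Finset.mem_filter.1 h1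
      obtain ⟨-, e2, f2⟩ := Finset.mem_filter.1 h2
      refine Prod.ext (e1.trans e2.symm) ?_
      rcases (hz σ hσ).2.2 v hv' w hw' (e1.trans e2.symm) with h | h
      · exact Submodule.eq_of_le_of_finrank_le h (by omega)
      · exact (Submodule.eq_of_le_of_finrank_le h (by omega)).symm
    have hvM : hv.card ≤ M := by
      have hsub : hv ⊆ z.support.biUnion fun σ => σ.filter (· ∈ hv) := by
        intro v h
        obtain ⟨σ, hσ, hvσ⟩ := Finset.mem_biUnion.1 (Finset.mem_filter.1 h).1
        exact Finset.mem_biUnion.2 ⟨σ, hσ, Finset.mem_filter.2 ⟨hvσ, h⟩⟩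
      refine (Finset.card_le_card hsub).trans (Finset.card_biUnion_le.trans
        ((Finset.sum_le_card_nsmul _ _ 1 fun σ hσ => Finset.card_le_one.2 ?_).trans_eq ?_))
      · intro v h w h'
        obtain ⟨a, b⟩ := Finset.mem_filter.1 h
        obtain ⟨a', b'⟩ := Finset.mem_filter.1 h'
        exact uniq σ hσ v a w a' b b'
      · rw [smul_eq_mul, mul_one]
    have hvfill : ∀ v ∈ hv, ∃ w, Supp (Face F B (Function.update U s v.2) k) w ∧
        bd w = lk v z ∧ w.support.card ≤ fillSize N M := by
      intro v hv'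
      obtain ⟨hmem, e1, f1⟩ := Finset.mem_filter.1 hv'
      obtain ⟨σ0, hσ0, hvσ0⟩ := Finset.mem_biUnion.1 hmem
      obtain ⟨hvB, hvU, hvT⟩ := (hz σ0 hσ0).2.1 v hvσ0
      have hk1 : 1 ≤ k := (hz σ0 hσ0).1 ▸ Finset.card_pos.2 ⟨v, hvσ0⟩
      rw [e1] at hvB hvU
      have hb : budget B (Function.update U s v.2) + 1 = budget B U := by
        unfold budget
        rw [← Finset.add_sum_erase _ _ (Finset.mem_univ s),
          ← Finset.add_sum_erase _ _ (Finset.mem_univ s), Function.update_self,
          Finset.sum_congr rfl fun t (ht : t ∈ Finset.univ.erase s) => by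
            rw [Function.update_of_ne (Finset.ne_of_mem_erase ht)]]
        omega
      have hlk : Supp (Face F B (Function.update U s v.2) (k - 1)) (lk v z) := by
        refine supp_lk (p := fun σ => σ ∈ z.support) (fun σ h => h) fun σ hσ hvσ => ?_
        obtain ⟨hc, hvt, hch⟩ := hz σ hσ
        refine ⟨by rw [Finset.card_erase_of_mem hvσ, hc], fun w hw => ?_,
          fun a ha b hb' => hch a (Finset.mem_of_mem_erase ha) b (Finset.mem_of_mem_erase hb')⟩
        obtain ⟨hne, hwσ⟩ := Finset.mem_erase.1 hw
        obtain ⟨wB, wU, wT⟩ := hvt w hwσ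
        refine ⟨wB, ?_, wT⟩
        by_cases hws : w.1 = s
        · rw [hws, Function.update_self]
          rw [hws] at wU
          have hne' : w.2 ≠ v.2 := fun e => hne (Prod.ext (hws.trans e1.symm) e)
          rcases hch w hwσ v hvσ (hws.trans e1.symm) with h | h
          · exact lt_of_le_of_ne h hne'
          · have := Submodule.finrank_lt_finrank_of_lt wU
            exact absurd (Submodule.eq_of_le_of_finrank_le h (by omega)).symm hne'
        · rwa [Function.update_of_ne hws]
      obtain ⟨w, hw, hwb, hwc⟩ := ih B (Function.update U s v.2) (k - 1) (lk v z)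
        (fun t => by
          by_cases ht : t = s
          · subst ht; rw [Function.update_self]; exact ⟨hvB.le, (hBU t).2.1, hvT⟩
          · rw [Function.update_of_ne ht]; exact hBU t)
        (by omega) (by omega) (by
          have := fieldSize_mono (Fintype.card κ) N (card_lk v z)
          rw [← hM] at this
          rw [fieldSize] at hq
          omega)
        hlk (by rw [bd_lk, hbd, map_zero])
      exact ⟨w, by rwa [Nat.sub_add_cancel hk1] at hw, hwb,
        hwc.trans (fillSize_mono N (card_lk v z))⟩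
    choose! W hW hWb hWc using hvfill
    set c0 := ∑ v ∈ hv, cone v (W v) with hc0
    have hWU : ∀ v ∈ hv, Supp (fun σ => Face F B U k σ ∧ ∀ w ∈ σ, w.1 = s → w.2 < v.2)
        (W v) := by
      intro v hv' σ hσ
      obtain ⟨hc, hvt, hch⟩ := hW v hv' σ hσ
      obtain ⟨hmem, e1, f1⟩ := Finset.mem_filter.1 hv'
      obtain ⟨σ0, hσ0, hvσ0⟩ := Finset.mem_biUnion.1 hmem
      have hvU := ((hz σ0 hσ0).2.1 v hvσ0).2.1
      refine ⟨⟨hc, fun w hw => ?_, hch⟩, fun w hw hws => ?_⟩
      · obtain ⟨wB, wU, wT⟩ := hvt w hw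
        refine ⟨wB, ?_, wT⟩
        by_cases hws : w.1 = s
        · rw [hws, Function.update_self] at wU
          rw [hws, ← e1]
          exact wU.trans hvU
        · rwa [Function.update_of_ne hws] at wU
      · have := (hvt w hw).2.1
        rwa [hws, Function.update_self] at this
    have hc0F : Supp (Face F B U (k + 1)) c0 := by
      refine Supp.sum fun v hv' => supp_cone (hWU v hv') ?_
      rintro σ ⟨⟨hc, hvt, hch⟩, hlt⟩ hnot
      obtain ⟨hmem, e1, -⟩ := Finset.mem_filter.1 hv'
      obtain ⟨σ0, hσ0, hvσ0⟩ := Finset.mem_biUnion.1 hmem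
      refine ⟨by rw [Finset.card_insert_of_notMem hnot, hc], ?_, ?_⟩
      · simp only [Finset.forall_mem_insert]
        exact ⟨(hz σ0 hσ0).2.1 v hvσ0, hvt⟩
      · intro a ha b hb hab
        rcases Finset.mem_insert.1 ha with ha | ha <;> rcases Finset.mem_insert.1 hb with hb | hb
        · rw [ha, hb]
          exact Or.inl le_rfl
        · rw [ha] at hab ⊢
          exact Or.inr (hlt b hb (hab.symm.trans e1)).le
        · rw [hb] at hab ⊢
          exact Or.inl (hlt a ha (hab.trans e1)).le
        · exact hch a ha b hb hab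
    have e0 : z + bd c0 =
        z.filter (fun σ => ¬ ∃ v ∈ hv, v ∈ σ) + ∑ v ∈ hv, W v := by
      have hb : ∀ v ∈ hv, bd (cone v (W v)) = W v + z.filter (fun σ => v ∈ σ) := by
        intro v hv'
        have h := bd_cone v (W v)
        rw [hWb v hv', cone_lk] at h
        calc bd (cone v (W v))
            = bd (cone v (W v)) + z.filter (fun σ => v ∈ σ) + z.filter (fun σ => v ∈ σ) := by
              rw [add_assoc, ZModModule.add_self, add_zero]
          _ = _ := by rw [h]
      rw [hc0, map_sum, Finset.sum_congr rfl hb, Finset.sum_add_distrib, ← add_assoc,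
        add_right_comm]
      congr 1
      rw [← add_filter z (fun σ => ∃ v ∈ hv, v ∈ σ)]
      congr 1
      ext σ
      rw [Finsupp.finsetSum_apply]
      by_cases h : ∃ v ∈ hv, v ∈ σ
      · obtain ⟨v, hv', hvσ⟩ := h
        rw [Finsupp.filter_apply_pos _ _ ⟨v, hv', hvσ⟩]
        by_cases hσ : σ ∈ z.support
        · rw [Finset.sum_eq_single_of_mem v hv' fun w hw hne => by
            rw [Finsupp.filter_apply, if_neg fun hwσ => hne (uniq σ hσ w hwσ v hvσ hw hv')],
            Finsupp.filter_apply, if_pos hvσ]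
        · rw [Finsupp.notMem_support_iff.1 hσ]
          refine Finset.sum_eq_zero fun w _ => ?_
          rw [Finsupp.filter_apply]
          simp [Finsupp.notMem_support_iff.1 hσ]
      · push Not at h
        rw [Finsupp.filter_apply_neg _ _ (by simpa using h)]
        exact Finset.sum_eq_zero fun v hv' => Finsupp.filter_apply_neg _ _ (h v hv')
    set z0 := z + bd c0 with hz0
    have hz0F : Supp (fun σ => Face F B U k σ ∧
        ∀ v ∈ σ, v.1 = s → finrank K v.2 + 2 ≤ finrank K (U s)) z0 := by
      rw [e0]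
      refine Supp.add (fun σ hσ => ?_) (Supp.sum fun v hv' σ hσ => ?_)
      · rw [Finsupp.support_filter, Finset.mem_filter] at hσ
        refine ⟨hz σ hσ.1, fun v hv' hvs => ?_⟩
        have hlt := ((hz σ hσ.1).2.1 v hv').2.1
        rw [hvs] at hlt
        have := Submodule.finrank_lt_finrank_of_lt hlt
        by_contra hcon
        exact hσ.2 ⟨v, Finset.mem_filter.2 ⟨Finset.mem_biUnion.2 ⟨σ, hσ.1, hv'⟩, hvs, by omega⟩,
          hv'⟩
      · refine ⟨(hWU v hv' σ hσ).1, fun w hw hws => ?_⟩
        have := Submodule.finrank_lt_finrank_of_lt ((hWU v hv' σ hσ).2 w hw hws)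
        have := (Finset.mem_filter.1 hv').2.2
        omega
    set M0 := M + M * fillSize N M with hM0
    have hz0c : z0.support.card ≤ M0 := by
      rw [e0]
      refine (card_add _ _).trans (Nat.add_le_add ?_ ?_)
      · rw [Finsupp.support_filter]; exact Finset.card_filter_le _ _
      · exact (card_sum _ _ hWc).trans (Nat.mul_le_mul_right _ hvM)
    have hbd0 : bd z0 = 0 := by rw [hz0, map_add, hbd, bd_bd, add_zero]
    -- a generic line
    set R : Finset (Submodule K V) :=
      ((z0.support.biUnion id).filter fun v => v.1 = s).image Prod.snd with hR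
    have hRin : ∀ r ∈ R, B s < r ∧ r < U s ∧ Trans F r ∧
        finrank K r + 2 ≤ finrank K (U s) := by
      intro r hr
      obtain ⟨v, hv', rfl⟩ := Finset.mem_image.1 hr
      obtain ⟨hv', hvs⟩ := Finset.mem_filter.1 hv'
      obtain ⟨σ, hσ, hvσ⟩ := Finset.mem_biUnion.1 hv'
      obtain ⟨a, b, c⟩ := (hz0F σ hσ).1.2.1 v hvσ
      rw [hvs] at a b
      exact ⟨a, b, c, (hz0F σ hσ).2 v hvσ hvs⟩
    have hRc : R.card ≤ M0 * (N + 1) := by
      refine Finset.card_image_le.trans ((Finset.card_filter_le _ _).trans
        (Finset.card_biUnion_le.trans ?_))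
      refine ((Finset.sum_le_card_nsmul _ _ (N + 1) fun σ hσ => ?_).trans_eq
        (smul_eq_mul _ _)).trans (Nat.mul_le_mul_right _ hz0c)
      rw [id, (hz0F σ hσ).1.1]
      omega
    classical
    have hBlt : B s < U s := lt_of_le_of_ne (hBU s).1 fun e => by rw [e] at hs; omega
    set T : Finset (Submodule K V) := insert (B s) (((insert (B s) R) ×ˢ
      (Finset.univ : Finset κ)).image (fun p => p.1 ⊔ F p.2) |>.filter fun P => P ≠ ⊤) with hT
    have hTU : ∀ P ∈ T, ¬ U s ≤ P := by
      intro P hP
      rcases Finset.mem_insert.1 hP with rfl | hP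
      · exact not_le_of_gt hBlt
      · obtain ⟨hP, hne⟩ := Finset.mem_filter.1 hP
        obtain ⟨⟨X, i⟩, hX, rfl⟩ := Finset.mem_image.1 hP
        refine proper_sup (hBU s).2.2 ?_ hne
        rcases Finset.mem_insert.1 (Finset.mem_product.1 hX).1 with rfl | hX
        · exact hBlt
        · exact (hRin X hX).2.1
    have hTc : T.card < Fintype.card K := by
      refine lt_of_le_of_lt ((Finset.card_insert_le _ _).trans (Nat.add_le_add_right
        ((Finset.card_filter_le _ _).trans (Finset.card_image_le.trans_eq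
          (Finset.card_product _ _))) 1)) (lt_of_le_of_lt ?_ hq)
      have h1 : (insert (B s) R).card ≤ (N + 2) * (M + M * fillSize N M + 1) := by
        refine (Finset.card_insert_le _ _).trans ((Nat.add_le_add_right hRc 1).trans ?_)
        rw [← hM0]
        nlinarith
      have h2 := Nat.mul_le_mul_right (Fintype.card κ) h1
      rw [Finset.card_univ, fieldSize]
      nlinarith
    obtain ⟨x, hxU, hxT⟩ := exists_outside T hTU hTc
    have hup : ∀ r, (r = B s ∨ r ∈ R) → B s ≤ r → r < U s → Trans F r →
        finrank K r + 2 ≤ finrank K (U s) → (r = B s → True) →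
        r ⊔ Submodule.span K {x} < U s ∧ Trans F (r ⊔ Submodule.span K {x}) := by
      intro r hr hBr hrU hrT hrk _
      refine ⟨lt_of_le_of_ne (sup_le hrU.le ((Submodule.span_singleton_le_iff_mem _ _).2 hxU))
        fun e => ?_, trans_sup hrT fun i => ?_⟩
      · have h1 := Submodule.finrank_sup_add_finrank_inf_eq r (Submodule.span K {x})
        have h2 : finrank K (Submodule.span K {x}) ≤ 1 :=
          (finrank_span_le_card _).trans (by simp)
        rw [e] at h1
        omega
      · by_contra hcon
        push Not at hcon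
        refine hxT _ (Finset.mem_insert_of_mem (Finset.mem_filter.2 ⟨Finset.mem_image.2
          ⟨(r, i), Finset.mem_product.2 ⟨Finset.mem_insert.2 hr, Finset.mem_univ _⟩, rfl⟩,
          hcon.1⟩)) hcon.2
    have hVR : ∀ r ∈ R, Vtx F B U (s, r ⊔ Submodule.span K {x}) := fun r hr => by
      obtain ⟨a, b, c, d⟩ := hRin r hr
      obtain ⟨h1, h2⟩ := hup r (Or.inr hr) a.le b c d fun _ => trivial
      exact ⟨lt_of_lt_of_le a le_sup_left, h1, h2⟩
    have hcov : ∀ σ ∈ z0.support, ∀ v ∈ σ, v.1 = s → x ∈ v.2 ∨ v.2 ∈ R := fun σ hσ v hv' hvs =>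
      Or.inr (Finset.mem_image.2
        ⟨v, Finset.mem_filter.2 ⟨Finset.mem_biUnion.2 ⟨σ, hσ, hv'⟩, hvs⟩, rfl⟩)
    obtain ⟨c1, hc1, hz1F, hx1, hz1c, hc1c⟩ :=
      shift s x R.card R z0 rfl (hz0F.mono fun σ h => h.1) hbd0 hVR hcov
    set z1 := z0 + bd c1 with hz1
    -- the cone at the line
    set Lx : S × Submodule K V := (s, B s ⊔ Submodule.span K {x}) with hLx
    have hLv : Vtx F B U Lx := by
      obtain ⟨h1, h2⟩ := hup (B s) (Or.inl rfl) le_rfl hBlt (hBU s).2.1 hs fun _ => trivial
      refine ⟨lt_of_le_of_ne le_sup_left fun e => hxT (B s) (Finset.mem_insert_self _ _) ?_, h1, h2⟩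
      have e' : B s = B s ⊔ Submodule.span K {x} := e
      rw [e']
      exact Submodule.mem_sup_right (Submodule.mem_span_singleton_self x)
    have hconeF : Supp (Face F B U (k + 1)) (cone Lx z1) := by
      refine supp_cone (p := fun σ => Face F B U k σ ∧ ∀ v ∈ σ, v.1 = s → x ∈ v.2)
        (fun σ hσ => ⟨hz1F σ hσ, hx1 σ hσ⟩) ?_
      rintro σ ⟨⟨hc, hvt, hch⟩, hxv⟩ hnot
      refine ⟨by rw [Finset.card_insert_of_notMem hnot, hc], ?_, ?_⟩
      · simp only [Finset.forall_mem_insert]
        exact ⟨hLv, hvt⟩
      · have key : ∀ v ∈ σ, v.1 = s → Lx.2 ≤ v.2 := fun v hv' hvs =>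
          sup_le (hvs ▸ (hvt v hv').1.le) ((Submodule.span_singleton_le_iff_mem _ _).2 (hxv v hv' hvs))
        intro a ha b hb hab
        rcases Finset.mem_insert.1 ha with rfl | ha <;> rcases Finset.mem_insert.1 hb with rfl | hb
        · exact Or.inl le_rfl
        · exact Or.inl (key b hb hab.symm)
        · exact Or.inr (key a ha hab)
        · exact hch a ha b hb hab
    refine ⟨c0 + c1 + cone Lx z1, (hc0F.add hc1).add hconeF, ?_, ?_⟩
    · have h := bd_cone Lx z1
      have hbd1 : bd z1 = 0 := by rw [hz1, map_add, hbd0, bd_bd, add_zero]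
      rw [hbd1, map_zero, add_zero] at h
      rw [map_add, map_add, h, hz1, hz0]
      calc bd c0 + bd c1 + (z + bd c0 + bd c1)
          = z + (bd c0 + bd c0) + (bd c1 + bd c1) := by abel
        _ = z := by rw [ZModModule.add_self, ZModModule.add_self, add_zero, add_zero]
    · refine (card_add _ _).trans ((Nat.add_le_add (card_add _ _) (card_cone _ _)).trans ?_)
      have h0 : c0.support.card ≤ M * fillSize N M :=
        (card_sum _ _ fun v hv' => (card_cone _ _).trans (hWc v hv')).trans
          (Nat.mul_le_mul_right _ hvM)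
      have h1 : c1.support.card ≤ M0 * (N + 1) * M0 :=
        hc1c.trans (Nat.mul_le_mul hRc hz0c)
      rw [fillSize, ← hM0]
      have h3 := hz1c.trans hz0c
      calc c0.support.card + c1.support.card + z1.support.card
          ≤ M0 + M0 * (N + 1) * M0 + M0 := by omega
        _ ≤ (N + 3) * (M0 + 1) ^ 2 := by nlinarith

/-- The sizes of the cones. -/
def coneSize (N : ℕ) : ℕ → ℕ
  | 0 => fillSize N 1
  | j + 1 => fillSize N (1 + (j + 1) * coneSize N j)

/-- A field size which suffices for all cones. -/
def coneField (m N : ℕ) : ℕ :=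
  fieldSize m N (1 + (N + 1) * ∑ i ∈ Finset.range (N + 1), coneSize N i)

/-- Bounded cones over all faces below the top dimension. -/
theorem exists_cones (B U : S → Submodule K V)
    (hBU : ∀ s, B s ≤ U s ∧ Trans F (B s) ∧ Trans F (U s))
    (hq : coneField (Fintype.card κ) (budget B U) < Fintype.card K) :
    ∃ C : Finset (S × Submodule K V) → Ch (S × Submodule K V),
      ∀ σ, Face F B U σ.card σ → σ.card + 1 ≤ budget B U →
        Supp (Face F B U (σ.card + 1)) (C σ) ∧
          bd (C σ) = Finsupp.single σ 1 + ∑ x ∈ σ, C (σ.erase x) ∧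
          (C σ).support.card ≤ coneSize (budget B U) σ.card := by
  classical
  set N := budget B U with hN
  suffices h : ∀ j, ∃ C : Finset (S × Submodule K V) → Ch (S × Submodule K V),
      ∀ σ, σ.card < j → Face F B U σ.card σ → σ.card + 1 ≤ N →
        Supp (Face F B U (σ.card + 1)) (C σ) ∧
          bd (C σ) = Finsupp.single σ 1 + ∑ x ∈ σ, C (σ.erase x) ∧
          (C σ).support.card ≤ coneSize N σ.card by
    obtain ⟨C, hC⟩ := h (N + 1)
    exact ⟨C, fun σ h1 h2 => hC σ (by omega) h1 h2⟩
  intro j
  induction j with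
  | zero => exact ⟨fun _ => 0, fun σ h => absurd h (Nat.not_lt_zero _)⟩
  | succ j ih =>
    obtain ⟨C, hC⟩ := ih
    have hnew : ∀ σ : Finset (S × Submodule K V), ∃ w, σ.card = j → Face F B U σ.card σ →
        σ.card + 1 ≤ N → Supp (Face F B U (σ.card + 1)) w ∧
          bd w = Finsupp.single σ 1 + ∑ x ∈ σ, C (σ.erase x) ∧
          w.support.card ≤ coneSize N σ.card := by
      intro σ
      by_cases h : σ.card = j ∧ Face F B U σ.card σ ∧ σ.card + 1 ≤ N
      swap
      · exact ⟨0, fun a b c => absurd ⟨a, b, c⟩ h⟩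
      obtain ⟨hj, hσ, hσN⟩ := h
      have hC' : ∀ x ∈ σ, Supp (Face F B U σ.card) (C (σ.erase x)) ∧
          bd (C (σ.erase x)) =
            Finsupp.single (σ.erase x) 1 + ∑ y ∈ σ.erase x, C ((σ.erase x).erase y) ∧
          (C (σ.erase x)).support.card ≤ coneSize N (σ.card - 1) := fun x hx => by
        have h1 := Finset.card_erase_add_one hx
        obtain ⟨a, b, c⟩ := hC (σ.erase x) (by omega)
          ⟨rfl, fun v hv => hσ.2.1 v (Finset.mem_of_mem_erase hv),
            fun v hv w hw => hσ.2.2 v (Finset.mem_of_mem_erase hv) w (Finset.mem_of_mem_erase hw)⟩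
          (by omega)
        rw [h1] at a
        rw [Finset.card_erase_of_mem hx] at c
        exact ⟨a, b, c⟩
      set z := Finsupp.single σ 1 + ∑ x ∈ σ, C (σ.erase x) with hz
      have hzF : Supp (Face F B U σ.card) z :=
        (Supp.single hσ 1).add (Supp.sum fun x hx => (hC' x hx).1)
      have hzb : bd z = 0 := by
        rw [hz, map_add, map_sum, bd_single, ← Finset.sum_add_distrib,
          Finset.sum_congr rfl fun x hx => by
            rw [(hC' x hx).2.1, ← add_assoc, ZModModule.add_self, zero_add]]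
        rw [Finset.sum_sigma']
        refine Finset.sum_involution (fun w _ => ⟨w.2, w.1⟩) ?_ ?_ ?_ ?_
        · rintro ⟨x, y⟩ _
          rw [Finset.erase_right_comm]
          exact ZModModule.add_self _
        · rintro ⟨x, y⟩ h _ he
          simp only [Finset.mem_sigma, Finset.mem_erase] at h
          simp only [Sigma.mk.injEq, heq_eq_eq] at he
          exact h.2.1 he.1
        · rintro ⟨x, y⟩ h
          simp only [Finset.mem_sigma, Finset.mem_erase] at h ⊢
          exact ⟨h.2.2, h.2.1.symm, h.1⟩
        · rintro ⟨x, y⟩ _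
          rfl
      have hzc : z.support.card ≤ 1 + σ.card * coneSize N (σ.card - 1) :=
        (card_add _ _).trans (Nat.add_le_add (card_single_le _)
          (card_sum _ _ fun x hx => (hC' x hx).2.2))
      obtain ⟨w, hw, hwb, hwc⟩ := exists_fill N B U σ.card z hBU le_rfl hσN (by
        refine lt_of_le_of_lt (fieldSize_mono _ _ (hzc.trans ?_)) hq
        refine Nat.add_le_add_left (Nat.mul_le_mul (by omega) (Finset.single_le_sum
          (f := coneSize N) (fun _ _ => Nat.zero_le _) (Finset.mem_range.2 (by omega)))) 1) hzF hzb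
      refine ⟨w, fun _ _ _ => ⟨hw, hwb, hwc.trans ?_⟩⟩
      rcases Nat.eq_zero_or_pos σ.card with h0 | h0
      · rw [h0] at hzc ⊢
        rw [coneSize]
        exact fillSize_mono N (hzc.trans (by simp))
      · obtain ⟨i, hi⟩ := Nat.exists_eq_succ_of_ne_zero (Nat.pos_iff_ne_zero.1 h0)
        rw [hi, Nat.succ_eq_add_one] at hzc ⊢
        rw [Nat.add_sub_cancel] at hzc
        rw [coneSize]
        exact fillSize_mono N hzc
    choose W hW using hnew
    refine ⟨fun σ => if σ.card < j then C σ else W σ, fun σ h1 h2 h3 => ?_⟩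
    have hsum : ∀ x ∈ σ,
        (if (σ.erase x).card < j then C (σ.erase x) else W (σ.erase x)) = C (σ.erase x) :=
      fun x hx => if_pos (by have := Finset.card_erase_add_one hx; omega)
    simp only [Finset.sum_congr rfl hsum]
    by_cases hle : σ.card < j
    · rw [if_pos hle]; exact hC σ hle h2 h3
    · rw [if_neg hle]; exact hW σ (by omega) h2 h3

/-- The join is acyclic below its top dimension, for a field which is large compared with the
budget only. -/
theorem exists_boundary (B U : S → Submodule K V)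
    (hBU : ∀ s, B s ≤ U s ∧ Trans F (B s) ∧ Trans F (U s))
    (hq : coneField (Fintype.card κ) (budget B U) < Fintype.card K)
    {k : ℕ} (hk : k + 1 ≤ budget B U) {z : Ch (S × Submodule K V)}
    (hz : Supp (Face F B U k) z) (hbd : bd z = 0) :
    ∃ w, Supp (Face F B U (k + 1)) w ∧ bd w = z := by
  classical
  obtain ⟨C, hC⟩ := exists_cones (F := F) B U hBU hq
  set L := Finsupp.linearCombination (ZMod 2) C with hL
  have hC' : ∀ σ ∈ z.support, Supp (Face F B U (k + 1)) (C σ) ∧
      bd (C σ) = Finsupp.single σ 1 + L (bd (Finsupp.single σ 1)) := by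
    intro σ hσ
    have h := hz σ hσ
    obtain ⟨a, b, -⟩ := hC σ (h.1.symm ▸ h) (h.1.symm ▸ hk)
    rw [h.1] at a
    refine ⟨a, b.trans ?_⟩
    rw [bd_single, map_sum]
    simp [hL]
  refine ⟨L z, Supp.linearCombination (p := fun σ => σ ∈ z.support) (fun σ h => h)
    (fun σ hσ => (hC' σ hσ).1), ?_⟩
  have e : ∀ y : Ch (S × Submodule K V), (∀ σ ∈ y.support, σ ∈ z.support) →
      bd (L y) = y + L (bd y) := by
    intro y hy
    conv_lhs => rw [← Finsupp.sum_single y]
    conv_rhs => rw [← Finsupp.sum_single y]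
    simp only [Finsupp.sum, map_sum, ← Finset.sum_add_distrib]
    refine Finset.sum_congr rfl fun σ hσ => ?_
    rw [show (Finsupp.single σ (y σ) : Ch (S × Submodule K V)) = y σ • Finsupp.single σ 1 by simp,
      map_smul, map_smul, map_smul, map_smul, ← smul_add, ← (hC' σ (hy σ hσ)).2]
    simp [hL]
  rw [e z fun σ h => h, hbd, map_zero, add_zero]

end Fill

end Vale.Agent.P067.Opp
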